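import Vale.Agent.P193.Bridge.Value

/-!
P193, W6: the lift of an arbitrary three-cycle of pieces and the relations of `BH.SFT.Lift`.
-/

namespace Vale.Agent.P193.Bridge

open BH Prefix Equiv

variable {Γ : Type} [Group Γ] {S : SFT Γ}

/-! ### Cycles continued by a word -/

/-- The prefixes followed by `r`. -/
def capp (c : S.Cyc) (r : Wd) : S.Cyc where
  base := c.base
  clopen := c.clopen
  shift := c.shift
  pre i := c.pre i ++ r
  disjoint i j h := Set.disjoint_of_subset (SFT.piece_append_subset _ _ _ _)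
    (SFT.piece_append_subset _ _ _ _) (c.disjoint i j h)

lemma capp_nil (c : S.Cyc) : capp c [] = c :=
  SFT.Cyc.ext' rfl rfl (funext fun i => List.append_nil _)

lemma capp_extend (c : S.Cyc) (b : Bool) (r : Wd) : capp (c.extend b) r = capp c (b :: r) :=
  SFT.Cyc.ext' rfl rfl (funext fun i => by simp [capp, SFT.Cyc.extend])

lemma extend_capp (c : S.Cyc) (b : Bool) (r : Wd) : (capp c r).extend b = capp c (r ++ [b]) :=
  SFT.Cyc.ext' rfl rfl (funext fun i => by simp [capp, SFT.Cyc.extend])

lemma capp_restrict (c : S.Cyc) {V : Set S.X} (hV : IsClopen V) (r : Wd) :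
    capp (c.restrict hV) r = (capp c r).restrict hV :=
  SFT.Cyc.ext' rfl rfl rfl

lemma mapsTo_capp {g : Perm S.Pt} {d d' : S.Cyc} (h : SFT.Cyc.MapsTo g d d') (r : Wd) :
    SFT.Cyc.MapsTo g (capp d r) (capp d' r) :=
  ⟨h.1, fun i x hx w => by
    show g (S.act (d.shift i) x, SFT.cat (d.pre i ++ r) w) =
      (S.act (d'.shift i) x, SFT.cat (d'.pre i ++ r) w)
    rw [cat_app, cat_app]
    exact h.2 i x hx _⟩

/-- A piece fixed by a cycle of pieces. -/
lemma not_mem_piece_of_inc {U : Set S.X} {γ : Γ} {a b : Wd} (h : Inc a b) (x : S.X)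
    (w : ℕ → Bool) : (x, SFT.cat b w) ∉ S.piece U γ a := by
  rintro ⟨y, -, v, e⟩
  exact comparable_of_cat (congrArg Prod.snd e).symm h

lemma isPerm_split {c : S.Cyc} {g₀ g₁ : Perm S.Pt} (h₀ : (c.extend false).IsPerm S g₀)
    (h₁ : (c.extend true).IsPerm S g₁) : c.IsPerm S (g₀ * g₁) := by
  have fix_ : ∀ (b : Bool) (g : Perm S.Pt), (c.extend b).IsPerm S g → ∀ i, ∀ x ∈ c.base, ∀ w,
      g (S.act (c.shift i) x, SFT.cat (c.pre i ++ [!b]) w) =
        (S.act (c.shift i) x, SFT.cat (c.pre i ++ [!b]) w) := by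
    intro b g hg i x hx w
    refine hg.2 _ fun j hj => ?_
    obtain ⟨y, hy, v, e⟩ := hj
    by_cases hij : i = j
    · subst hij
      have := congrArg Prod.snd e
      simp only [SFT.Cyc.extend, cat_app] at this
      have := congrFun (cat_cancel this) 0
      simp [SFT.cat] at this
    · refine Set.disjoint_left.1 (c.disjoint i j hij) ⟨x, hx, SFT.cat [!b] w, ?_⟩
        (SFT.piece_append_subset _ _ _ [b] ⟨y, hy, v, e⟩)
      rw [cat_app]
  refine ⟨fun i x hx w => ?_, fun p hp => ?_⟩
  · have hw : w = SFT.cat [w 0] fun n => w (n + 1) := by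
      funext n
      rcases n with _ | n <;> simp [SFT.cat]
    rw [hw, ← cat_app, ← cat_app, Perm.mul_apply]
    cases w 0
    · have := fix_ true g₁ h₁ i x hx fun n => w (n + 1)
      simp only [Bool.not_true] at this
      rw [this]
      exact h₀.1 i x hx _
    · have := h₁.1 i x hx fun n => w (n + 1)
      simp only [SFT.Cyc.extend] at this
      rw [this]
      simpa only [Bool.not_false] using fix_ false g₀ h₀ (i + 1) x hx fun n => w (n + 1)
  · have : ∀ b, ∀ i, p ∉ S.piece (c.extend b).base ((c.extend b).shift i) ((c.extend b).pre i) :=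
      fun b i hi => hp i (SFT.piece_append_subset _ _ _ [b] hi)
    rw [Perm.mul_apply, h₁.2 p (this true), h₀.2 p (this false)]

lemma prod_map_mul {G : Type} [Group G] {ι : Type} (l : List ι) (g h : ι → G)
    (hc : ∀ i ∈ l, ∀ j ∈ l, Commute (h i) (g j)) :
    (l.map fun i => g i * h i).prod = (l.map g).prod * (l.map h).prod := by
  induction l with
  | nil => simp
  | cons i l ih =>
    have hh : Commute (h i) (l.map g).prod := Commute.list_prod_right _ _ fun y hy => by
      obtain ⟨j, hj, rfl⟩ := List.mem_map.1 hy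
      exact hc i List.mem_cons_self j (List.mem_cons_of_mem _ hj)
    simp only [List.map_cons, List.prod_cons]
    rw [ih fun a ha b hb => hc a (List.mem_cons_of_mem _ ha) b (List.mem_cons_of_mem _ hb),
      mul_assoc (g i) (h i), ← mul_assoc (h i), hh.eq]
    group

namespace Sys

variable {E : Type} [Group E] (M : Sys S E)

/-- All continuations of length `n` are images of nice cycles. -/
def ReadyN (c : S.Cyc) (n : ℕ) : Prop := ∀ r : Wd, r.length = n → M.Ready (capp c r)

/-- The product over all continuations of length `n`. -/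
noncomputable def prodN (c : S.Cyc) (n : ℕ) : E :=
  ((words n).map fun r => M.val (capp c r)).prod

/-- The sum of the lengths of the prefixes. -/
def size (c : S.Cyc) : ℕ := (c.pre 0).length + (c.pre 1).length + (c.pre 2).length

/-- Length of the continuations used for a cycle. -/
def bound (c : S.Cyc) : ℕ := sufLen (size c)

/-- The lift of a cycle. -/
noncomputable def T (c : S.Cyc) : E := M.prodN c (bound c)

lemma ready_bound (c : S.Cyc) : M.ReadyN c (bound c) := by
  intro r hr
  obtain ⟨f, hf, hfar⟩ := exists_far (size c) r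
  set D := size c with hD
  have hl : ∀ i, (c.pre i).length ≤ D := by
    intro i
    fin_cases i <;> simp [hD, size] <;> omega
  have hs : ∀ k, 5 ≤ (mark D (f k)).length := fun k => by simp [sufLen]
  have hr5 : 5 ≤ r.length := by rw [hr]; simp [bound, sufLen]
  have hlr : ∀ j, 5 ≤ (c.pre j ++ r).length := fun j => by simp; omega
  have im : ∀ k j, Inc (mark D (f k)) (c.pre j ++ r) := fun k j => by
    simpa using inc_mark (D := D) (a := []) hr (hfar k) (Nat.zero_le _) (hl j)
  have imm : ∀ k l, k ≠ l → Inc (mark D (f k)) (mark D (f l)) := fun k l hkl => by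
    simpa using inc_mark (D := D) (a := []) (b := []) (length_mark D _)
      (far_mark D fun e => hkl (hf e)) (Nat.zero_le _) (Nat.zero_le _)
  let A : Fin 3 → Pc Γ := fun j => (c.shift j, c.pre j ++ r)
  let P : Fin 3 → Pc Γ := fun k => (1, mark D (f k))
  let e : NC S := mkNC c.clopen ![A 0, P 0, P 1]
    (by intro i; fin_cases i; exacts [hlr 0, hs 0, hs 1])
    (by
      intro i j h
      have := pair_inc (im 0 0).symm (im 1 0).symm (imm 0 1 (by decide)) i j h
      fin_cases i <;> fin_cases j <;> first | exact absurd rfl h | exact this)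
  let c₁ : NC S := mkNC c.clopen ![P 0, A 1, P 2]
    (by intro i; fin_cases i; exacts [hs 0, hlr 1, hs 2])
    (by
      intro i j h
      have := pair_inc (im 0 1) (imm 0 2 (by decide)) (im 2 1).symm i j h
      fin_cases i <;> fin_cases j <;> first | exact absurd rfl h | exact this)
  let c₂ : NC S := mkNC c.clopen ![P 1, A 2, P 2]
    (by intro i; fin_cases i; exacts [hs 1, hlr 2, hs 2])
    (by
      intro i j h
      have := pair_inc (im 1 2) (imm 1 2 (by decide)) (im 2 2).symm i j h
      fin_cases i <;> fin_cases j <;> first | exact absurd rfl h | exact this)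
  -- a piece of `c` lies in no other piece of `c` and in no spare piece
  have nA : ∀ i j, i ≠ j → ∀ x ∈ c.base, ∀ w,
      (S.act (c.shift i) x, SFT.cat (c.pre i ++ r) w) ∉
        S.piece c.base (c.shift j) (c.pre j ++ r) := fun i j hij x hx w hj =>
    Set.disjoint_left.1 (c.disjoint i j hij)
      (SFT.piece_append_subset _ _ _ r ⟨x, hx, w, rfl⟩) (SFT.piece_append_subset _ _ _ r hj)
  refine ⟨_, M.t c₂ * M.t c₁, mul_mem (M.t_mem _) (M.t_mem _), e, ⟨rfl, fun i x hx w => ?_⟩, rfl⟩
  rw [map_mul, Perm.mul_apply]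
  fin_cases i
  · show M.hom (M.t c₂) (M.hom (M.t c₁) (S.act (c.shift 0) x, SFT.cat (c.pre 0 ++ r) w)) = _
    rw [(M.hom_t c₁).2 _ fun j => ?_, (M.hom_t c₂).2 _ fun j => ?_]
    · rfl
    · fin_cases j
      exacts [not_mem_piece_of_inc (im 1 0) _ w, nA 0 2 (by decide) x hx w,
        not_mem_piece_of_inc (im 2 0) _ w]
    · fin_cases j
      exacts [not_mem_piece_of_inc (im 0 0) _ w, nA 0 1 (by decide) x hx w,
        not_mem_piece_of_inc (im 2 0) _ w]
  · have s1 : M.hom (M.t c₁) (S.act (1 : Γ) x, SFT.cat (mark D (f 0)) w) =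
        (S.act (c.shift 1) x, SFT.cat (c.pre 1 ++ r) w) := (M.hom_t c₁).1 0 x hx w
    show M.hom (M.t c₂) (M.hom (M.t c₁) (S.act (1 : Γ) x, SFT.cat (mark D (f 0)) w)) = _
    rw [s1, (M.hom_t c₂).2 _ fun j => ?_]
    · rfl
    · fin_cases j
      exacts [not_mem_piece_of_inc (im 1 1) _ w, nA 1 2 (by decide) x hx w,
        not_mem_piece_of_inc (im 2 1) _ w]
  · have s2 : M.hom (M.t c₂) (S.act (1 : Γ) x, SFT.cat (mark D (f 1)) w) =
        (S.act (c.shift 2) x, SFT.cat (c.pre 2 ++ r) w) := (M.hom_t c₂).1 0 x hx w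
    show M.hom (M.t c₂) (M.hom (M.t c₁) (S.act (1 : Γ) x, SFT.cat (mark D (f 1)) w)) = _
    rw [(M.hom_t c₁).2 _ fun j => ?_, s2]
    · rfl
    · fin_cases j
      exacts [not_mem_piece_of_inc (imm 0 1 (by decide)) _ w, not_mem_piece_of_inc (im 1 1).symm _ w,
        not_mem_piece_of_inc (imm 2 1 (by decide)) _ w]

lemma ReadyN.succ {c : S.Cyc} {n : ℕ} (h : M.ReadyN c n) : M.ReadyN c (n + 1) := by
  intro r hr
  rcases r.eq_nil_or_concat' with rfl | ⟨r', b, rfl⟩
  · simp at hr
  · rw [← extend_capp]
    exact (h r' (by simpa using hr)).extend M b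

lemma ReadyN.le {c : S.Cyc} {n m : ℕ} (h : M.ReadyN c n) (hm : n ≤ m) : M.ReadyN c m := by
  induction hm with
  | refl => exact h
  | step _ ih => exact ih.succ M

lemma prodN_extend (c : S.Cyc) (n : ℕ) :
    M.prodN c (n + 1) = M.prodN (c.extend false) n * M.prodN (c.extend true) n := by
  simp only [prodN, words, List.map_append, List.prod_append, List.map_map, Function.comp_def,
    capp_extend]

lemma prodN_mem (c : S.Cyc) {n : ℕ} (h : M.ReadyN c n) : M.prodN c n ∈ M.sub :=
  list_prod_mem fun x hx => by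
    obtain ⟨r, hr, rfl⟩ := List.mem_map.1 hx
    exact Rep.mem M (M.rep_val (h r (mem_words.1 hr)))

lemma T_mem (c : S.Cyc) : M.T c ∈ M.sub := M.prodN_mem c (M.ready_bound c)

lemma prodN_isPerm : ∀ (n : ℕ) (c : S.Cyc), M.ReadyN c n → c.IsPerm S (M.hom (M.prodN c n))
  | 0, c, h => by
    have := Rep.isPerm M (M.rep_val (h [] rfl))
    simp only [capp_nil] at this
    simpa [prodN, words, capp_nil] using this
  | n + 1, c, h => by
    have hb : ∀ b, M.ReadyN (c.extend b) n := fun b r hr => by
      rw [capp_extend]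
      exact h _ (by simp [hr])
    rw [prodN_extend, map_mul]
    exact isPerm_split (prodN_isPerm n _ (hb false)) (prodN_isPerm n _ (hb true))

lemma hom_T (c : S.Cyc) : c.IsPerm S (M.hom (M.T c)) := M.prodN_isPerm _ c (M.ready_bound c)

variable (hfree : ∀ (x : S.X) (γ : Γ), S.act γ x = x → γ = 1)

include hfree

lemma prodN_succ : ∀ (n : ℕ) (c : S.Cyc), M.ReadyN c n → M.prodN c (n + 1) = M.prodN c n
  | 0, c, h => by
    have h0 : M.Ready c := by simpa [capp_nil] using h [] rfl
    have e : ∀ b, capp c [b] = c.extend b := fun b => by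
      rw [← capp_extend, capp_nil]
    simp [prodN, words, capp_nil, e, ← M.val_extend hfree h0]
  | n + 1, c, h => by
    have hb : ∀ b, M.ReadyN (c.extend b) n := fun b r hr => by
      rw [capp_extend]
      exact h _ (by simp [hr])
    rw [prodN_extend M c (n + 1), prodN_succ n _ (hb false), prodN_succ n _ (hb true),
      ← prodN_extend]

lemma prodN_le {c : S.Cyc} {n m : ℕ} (h : M.ReadyN c n) (hm : n ≤ m) :
    M.prodN c m = M.prodN c n := by
  induction hm with
  | refl => rfl
  | step hm' ih => exact (M.prodN_succ hfree _ c (h.le M hm')).trans ih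

lemma T_eq {c : S.Cyc} {m : ℕ} (hm : bound c ≤ m) : M.T c = M.prodN c m :=
  (M.prodN_le hfree (M.ready_bound c) hm).symm

lemma T_nice (d : NC S) : M.T d.cyc = M.t d := by
  have h0 : M.ReadyN d.cyc 0 := fun r hr => by
    rw [List.length_eq_zero_iff.1 hr, capp_nil]
    exact ⟨_, M.rep_nice d⟩
  rw [T, M.prodN_le hfree h0 (Nat.zero_le _)]
  simp [prodN, words, capp_nil, M.val_eq hfree (M.rep_nice d)]

/-- Conjugation of lifts by any element. -/
lemma conj_T {x : E} (hx : x ∈ M.sub) {d d' : S.Cyc}
    (h : SFT.Cyc.MapsTo (M.hom x) d d') : x * M.T d * x⁻¹ = M.T d' := by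
  set m := max (bound d) (bound d')
  rw [M.T_eq hfree (le_max_left _ _ : bound d ≤ m), M.T_eq hfree (le_max_right _ _ : bound d' ≤ m)]
  refine conj_ev_prod _ _ _ _ fun r hr => ?_
  have hd := (M.ready_bound d).le M (le_max_left _ _ : bound d ≤ m) r (mem_words.1 hr)
  exact (M.val_eq hfree (Rep.map M (M.rep_val hd) hx (mapsTo_capp h r))).symm

lemma T_split_pre (c : S.Cyc) : M.T c = M.T (c.extend false) * M.T (c.extend true) := by
  set m := max (bound c) (max (bound (c.extend false)) (bound (c.extend true)))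
  rw [M.T_eq hfree (show bound c ≤ m + 1 by omega),
    M.T_eq hfree (show bound (c.extend false) ≤ m by omega),
    M.T_eq hfree (show bound (c.extend true) ≤ m by omega), prodN_extend]

lemma T_split_base (c : S.Cyc) {V : Set S.X} (hV : IsClopen V) :
    M.T c = M.T (c.restrict hV) * M.T (c.restrict hV.compl) := by
  have hb : ∀ {W : Set S.X} (hW : IsClopen W), bound (c.restrict hW) ≤ bound c := fun _ => le_rfl
  rw [M.T_eq hfree (hb hV), M.T_eq hfree (hb hV.compl), T, prodN, prodN, prodN]
  have hr : ∀ r ∈ words (bound c), M.Ready (capp c r) := fun r hr =>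
    M.ready_bound c r (mem_words.1 hr)
  rw [List.map_congr_left fun r h => by rw [M.val_restrict hfree (hr r h) hV],
    prod_map_mul]
  · simp only [capp_restrict]
  intro a ha b hb'
  have ra := M.rep_val ((hr a ha).restrict M hV.compl)
  have rb := M.rep_val ((hr b hb').restrict M hV)
  have fixed : SFT.Cyc.MapsTo (M.hom (M.val ((capp c a).restrict hV.compl)))
      ((capp c b).restrict hV) ((capp c b).restrict hV) := by
    refine ⟨rfl, fun i y hy w => (Rep.isPerm M ra).2 _ fun j hj => ?_⟩
    obtain ⟨z, hz, v, e⟩ := hj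
    by_cases hij : i = j
    · subst hij
      have : y = z := (S.act (c.shift i)).injective (congrArg Prod.fst e)
      exact hz.2 (this ▸ hy.2)
    · exact Set.disjoint_left.1 (c.disjoint i j hij)
        (SFT.piece_append_subset _ _ _ b ⟨y, hy.1, w, rfl⟩)
        (SFT.piece_append_subset _ _ _ a ⟨z, hz.1, v, e⟩)
  have := M.val_eq hfree (Rep.map M rb (Rep.mem M ra) fixed)
  exact mul_inv_eq_iff_eq_mul.1 this.symm

attribute [local irreducible] T

omit hfree in
/-- The lift of a cycle as an element of the generated group. -/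
noncomputable def Tsub (c : S.Cyc) : M.sub := ⟨M.T c, M.T_mem c⟩

lemma Tsub_split_base (c : S.Cyc) (V : Set S.X) (hV : IsClopen V) :
    M.Tsub c = M.Tsub (c.restrict hV) * M.Tsub (c.restrict hV.compl) :=
  Subtype.ext (M.T_split_base hfree c hV)

lemma Tsub_split_pre (c : S.Cyc) :
    M.Tsub c = M.Tsub (c.extend false) * M.Tsub (c.extend true) :=
  Subtype.ext (M.T_split_pre hfree c)

lemma Tsub_conj (c d d' : S.Cyc)
    (h : SFT.Cyc.MapsTo ((M.hom.comp M.sub.subtype) (M.Tsub c)) d d') :
    M.Tsub c * M.Tsub d * (M.Tsub c)⁻¹ = M.Tsub d' :=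
  Subtype.ext (by
    simp only [Subgroup.coe_mul, Subgroup.coe_inv]
    exact M.conj_T hfree (M.T_mem c) h)

lemma Tsub_generated : Subgroup.closure (Set.range M.Tsub) = ⊤ := by
  rw [eq_top_iff]
  rintro ⟨x, hx⟩ -
  induction hx using Subgroup.closure_induction with
  | one => exact one_mem (Subgroup.closure (Set.range M.Tsub))
  | mem y hy =>
    obtain ⟨d, rfl⟩ := hy
    exact Subgroup.subset_closure ⟨d.cyc, Subtype.ext (M.T_nice hfree d)⟩
  | mul y y' _ _ i1 i2 => exact mul_mem i1 i2
  | inv y _ i => exact inv_mem i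

/-- The lift of all cycles in the group generated by the lifts of nice cycles. -/
noncomputable def lift : SFT.Lift S where
  E := M.sub
  proj := M.hom.comp M.sub.subtype
  t := M.Tsub
  proj_t := M.hom_T
  split_base := M.Tsub_split_base hfree
  split_pre := M.Tsub_split_pre hfree
  conj := M.Tsub_conj hfree
  generated := M.Tsub_generated hfree

end Sys

end Vale.Agent.P193.Bridge
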