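import Vale.Agent.P193.Bridge.Piece

/-!
P193, W6: if a product carries the three pieces of a cycle affinely onto those of another one, it
conjugates the lifts accordingly, whatever the intermediate pieces are. Consequently a product with
trivial permutation is central.
-/

namespace Vale.Agent.P193.Bridge

open BH Prefix Equiv

variable {Γ : Type} [Group Γ] {S : SFT Γ}

/-! ### Suffixes that are incomparable after any short shift -/

lemma agree_of_not_inc {a b : Wd} (h : ¬ Inc a b) {i : ℕ} (ha : i < a.length) (hb : i < b.length) :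
    a[i] = b[i] := by
  simp only [Inc, not_and_or, not_not] at h
  rcases h with ⟨r, rfl⟩ | ⟨r, rfl⟩
  · simp [List.getElem_append_left ha]
  · simp [List.getElem_append_left hb]

/-- The place of the one in the `k`th suffix. -/
def spot (D : ℕ) (k : Fin 4) : ℕ := (k.val + 1) * (4 * D + 1)

/-- The length of the suffixes. -/
def sufLen (D : ℕ) : ℕ := 5 * (4 * D + 1)

/-- The `k`th suffix. -/
def mark (D : ℕ) (k : Fin 4) : Wd := (List.range (sufLen D)).map fun i => decide (i = spot D k)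

/-- `r` has a one near the `k`th place. -/
def Near (D : ℕ) (r : Wd) (k : Fin 4) : Prop :=
  ∃ i, ∃ h : i < r.length, r[i] = true ∧ i ≤ spot D k + D ∧ spot D k ≤ i + D

/-- `r` cannot be taken for the `k`th suffix. -/
def Far (D : ℕ) (r : Wd) (k : Fin 4) : Prop :=
  Near D r k → ∃ l, l ≠ k ∧ Near D r l

@[simp] lemma length_mark (D : ℕ) (k : Fin 4) : (mark D k).length = sufLen D := by simp [mark]

lemma spot_bounds (D : ℕ) (k : Fin 4) : 4 * D + 1 ≤ spot D k ∧ spot D k ≤ 4 * (4 * D + 1) := by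
  constructor
  · exact Nat.le_mul_of_pos_left _ (by omega)
  · exact Nat.mul_le_mul_right _ (by omega)

lemma spot_sep (D : ℕ) {k l : Fin 4} (h : k ≠ l) :
    spot D k + 2 * D < spot D l ∨ spot D l + 2 * D < spot D k := by
  rcases lt_or_gt_of_ne (fun e => h (Fin.ext e) : k.val ≠ l.val) with hlt | hlt
  · have := Nat.mul_le_mul_right (4 * D + 1) (show k.val + 1 + 1 ≤ l.val + 1 by omega)
    rw [Nat.add_mul, one_mul] at this
    left; unfold spot; omega
  · have := Nat.mul_le_mul_right (4 * D + 1) (show l.val + 1 + 1 ≤ k.val + 1 by omega)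
    rw [Nat.add_mul, one_mul] at this
    right; unfold spot; omega

lemma inc_mark {D : ℕ} {r a b : Wd} {k : Fin 4} (hr : r.length = sufLen D) (hf : Far D r k)
    (ha : a.length ≤ D) (hb : b.length ≤ D) : Inc (a ++ mark D k) (b ++ r) := by
  by_contra hn
  obtain ⟨h1, h2⟩ := spot_bounds D k
  have hR : sufLen D = 5 * (4 * D + 1) := rfl
  have e := agree_of_not_inc hn (i := a.length + spot D k) (by simp; omega) (by simp; omega)
  rw [List.getElem_append_right (by omega), List.getElem_append_right (by omega)] at e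
  simp [mark] at e
  have hnear : Near D r k := ⟨_, _, e, by omega, by omega⟩
  obtain ⟨l, hl, i, hi, hri, h3, h4⟩ := hf hnear
  obtain ⟨h5, h6⟩ := spot_bounds D l
  have e' := agree_of_not_inc hn (i := b.length + i) (by simp; omega) (by simp; omega)
  rw [List.getElem_append_right (by omega), List.getElem_append_right (by omega)] at e'
  simp [mark, hri] at e'
  rcases spot_sep D hl <;> omega

lemma far_mark (D : ℕ) {k l : Fin 4} (h : k ≠ l) : Far D (mark D l) k := by
  rintro ⟨i, hi, hri, h1, h2⟩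
  simp [mark] at hri
  rcases spot_sep D h <;> omega

lemma exists_far (D : ℕ) (r : Wd) :
    ∃ f : Fin 3 → Fin 4, Function.Injective f ∧ ∀ i, Far D r (f i) := by
  by_cases h : ∀ k, Far D r k
  · exact ⟨Fin.castSucc, Fin.castSucc_injective _, fun i => h _⟩
  · push Not at h
    obtain ⟨k, hk⟩ := h
    refine ⟨k.succAbove, Fin.succAbove_right_injective, fun i hn => ?_⟩
    exact ⟨k, (Fin.succAbove_ne k i).symm, (Classical.not_imp.1 hk).1⟩

/-! ### Cycles given by their pieces -/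

/-- The cycle of three given pieces. -/
def mkNC {U : Set S.X} (hU : IsClopen U) (a : Fin 3 → Pc Γ) (hl : ∀ i, 5 ≤ (a i).2.length)
    (hi : ∀ i j, i ≠ j → Inc (a i).2 (a j).2) : NC S :=
  ⟨U, hU, fun i => (a i).1, fun i => (a i).2, hl, hi⟩

lemma pair_inc {a b c : Wd} (hab : Inc a b) (hac : Inc a c) (hbc : Inc b c) :
    ∀ i j : Fin 3, i ≠ j → Inc (![a, b, c] i) (![a, b, c] j)
  | 0, 0, h | 1, 1, h | 2, 2, h => absurd rfl h
  | 0, 1, _ => hab
  | 1, 0, _ => hab.symm
  | 0, 2, _ => hac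
  | 2, 0, _ => hac.symm
  | 1, 2, _ => hbc
  | 2, 1, _ => hbc.symm

/-- A cycle moves each of its pieces onto the next one. -/
lemma carries_step (c : NC S) {U : Set S.X} (hU : U ⊆ c.base) (j : Fin 3) :
    Carries c U (c.pc j) (c.pc (j + 1)) :=
  Or.inr ⟨j, [], by simp [NC.pc], fun x hx => c.act_mem_at'.2 (hU hx), by simp [NC.pc]⟩

lemma exists_track (w : List (NC S)) {U : Set S.X} (hU : IsClopen U) (a : Pc Γ)
    (ha : wtw w ≤ a.2.length) (P : Set S.X → Prop)
    (hu : ∀ V V', IsClopen V → IsClopen V' → Disjoint V V' → P V → P V' → P (V ∪ V'))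
    (hb : ∀ V, IsClopen V → V ⊆ U → (∃ b, Track w V a b) → P V) : P U := by
  induction w generalizing P with
  | nil => exact hb U hU subset_rfl ⟨a, rfl⟩
  | cons c w ih =>
    refine ih (by simp only [wtw_cons] at ha; omega) P hu fun V hV hVU hm => ?_
    obtain ⟨m, hm⟩ := hm
    have hlen := hm.length_le
    simp only [wtw_cons] at ha
    by_cases hp : ∃ j, c.pre j <+: m.2
    · obtain ⟨j, r, hr⟩ := hp
      have hW : IsClopen {x | S.act m.1 x ∈ c.at' j} :=
        (c.isClopen_at' j).preimage (S.continuous_act _)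
      rw [← Set.inter_union_sdiff V {x | S.act m.1 x ∈ c.at' j}]
      refine hu _ _ (hV.inter hW) (hV.diff hW) Set.disjoint_sdiff_inter.symm
        (hb _ (hV.inter hW) (Set.inter_subset_left.trans hVU) ⟨_, m, hm.mono Set.inter_subset_left,
          Or.inr ⟨j, r, hr.symm, fun x hx => hx.2, rfl⟩⟩)
        (hb _ (hV.diff hW) (Set.sdiff_subset.trans hVU) ⟨m, m, hm.mono Set.sdiff_subset,
          Or.inl ⟨fun i => ?_, rfl⟩⟩)
      by_cases hij : i = j
      · subst hij
        exact Or.inr ⟨⟨r, hr⟩, fun x hx => hx.2⟩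
      · exact Or.inl ((c.inc i j hij).of_prefix ⟨r, hr⟩)
    · push Not at hp
      refine hb V hV hVU ⟨m, m, hm, keeps_of_inc fun i => ⟨hp i, fun hq => hp i ?_⟩⟩
      have := c.length_le_wt i
      rw [hq.eq_of_length_le (by omega)]

namespace Sys

variable {E : Type} [Group E] (M : Sys S E)

lemma ev_map {ι : Type} (l : List ι) (f : ι → NC S) :
    M.ev (l.map f) = (l.map fun i => M.t (f i)).prod := by
  simp [ev, Function.comp_def]

lemma t_onBase_union (d : NC S) {V V' : Set S.X} (hV : IsClopen V) (hV' : IsClopen V')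
    (h : Disjoint V V') :
    M.t (d.onBase (V ∪ V') (hV.union hV')) = M.t (d.onBase V hV) * M.t (d.onBase V' hV') :=
  M.union _ _ _ (fun _ => rfl) (fun _ => rfl) h rfl

/-- A cycle as a conjugate of one with two spare pieces. -/
lemma tri (d e c₁ c₂ : NC S) (he : e.base = d.base) (h₁ : c₁.base = d.base) (h₂ : c₂.base = d.base)
    {P Q Z : Pc Γ} (he' : ∀ j, e.pc j = ![d.pc 0, P, Q] j)
    (h₁' : ∀ j, c₁.pc j = ![P, d.pc 1, Z] j) (h₂' : ∀ j, c₂.pc j = ![Q, d.pc 2, Z] j)
    (hAZ : Inc (d.pc 0).2 Z.2) (hBQ : Inc (d.pc 1).2 Q.2) :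
    M.t d = M.t c₂ * (M.t c₁ * M.t e * (M.t c₁)⁻¹) * (M.t c₂)⁻¹ := by
  have hd := fun i j h => d.inc i j h
  have iAP : Inc (d.pc 0).2 P.2 := by
    have := e.inc 0 1 (by decide)
    rwa [show e.pre 0 = (d.pc 0).2 from congrArg Prod.snd (he' 0),
      show e.pre 1 = P.2 from congrArg Prod.snd (he' 1)] at this
  have iAQ : Inc (d.pc 0).2 Q.2 := by
    have := e.inc 0 2 (by decide)
    rwa [show e.pre 0 = (d.pc 0).2 from congrArg Prod.snd (he' 0),
      show e.pre 2 = Q.2 from congrArg Prod.snd (he' 2)] at this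
  have iPQ : Inc P.2 Q.2 := by
    have := e.inc 1 2 (by decide)
    rwa [show e.pre 1 = P.2 from congrArg Prod.snd (he' 1),
      show e.pre 2 = Q.2 from congrArg Prod.snd (he' 2)] at this
  have iBZ : Inc (d.pc 1).2 Z.2 := by
    have := c₁.inc 1 2 (by decide)
    rwa [show c₁.pre 1 = (d.pc 1).2 from congrArg Prod.snd (h₁' 1),
      show c₁.pre 2 = Z.2 from congrArg Prod.snd (h₁' 2)] at this
  have iQZ : Inc Q.2 Z.2 := by
    have := c₂.inc 0 2 (by decide)
    rwa [show c₂.pre 0 = Q.2 from congrArg Prod.snd (h₂' 0),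
      show c₂.pre 2 = Z.2 from congrArg Prod.snd (h₂' 2)] at this
  have iAB : Inc (d.pc 0).2 (d.pc 1).2 := hd 0 1 (by decide)
  have iAC : Inc (d.pc 0).2 (d.pc 2).2 := hd 0 2 (by decide)
  have iBC : Inc (d.pc 1).2 (d.pc 2).2 := hd 1 2 (by decide)
  let f : NC S := mkNC d.clopen ![d.pc 0, d.pc 1, Q]
    (by intro i; fin_cases i
        · exact d.long 0
        · exact d.long 1
        · show 5 ≤ Q.2.length
          rw [← show e.pre 2 = Q.2 from congrArg Prod.snd (he' 2)]; exact e.long 2)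
    (by
      have := pair_inc iAB iAQ hBQ
      intro i j h
      fin_cases i <;> fin_cases j <;> first | exact absurd rfl h | exact this _ _ h)
  have fpc : ∀ j, f.pc j = ![d.pc 0, d.pc 1, Q] j := fun j => rfl
  have keep₁ : ∀ {q : Pc Γ}, Inc P.2 q.2 → Inc (d.pc 1).2 q.2 → Inc Z.2 q.2 →
      Carries c₁ d.base q q := fun hP hB hZ => keeps_of_inc fun j => by
    rw [show c₁.pre j = (![P, d.pc 1, Z] j).2 from congrArg Prod.snd (h₁' j)]
    fin_cases j <;> assumption
  have keep₂ : ∀ {q : Pc Γ}, Inc Q.2 q.2 → Inc (d.pc 2).2 q.2 → Inc Z.2 q.2 →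
      Carries c₂ d.base q q := fun hQ hC hZ => keeps_of_inc fun j => by
    rw [show c₂.pre j = (![Q, d.pc 2, Z] j).2 from congrArg Prod.snd (h₂' j)]
    fin_cases j <;> assumption
  have step₁ : M.t c₁ * M.t e * (M.t c₁)⁻¹ = M.t f := by
    refine M.conj c₁ e f he.symm fun i => ?_
    rw [he, he', fpc]
    fin_cases i
    · exact keep₁ iAP.symm iAB.symm hAZ.symm
    · have := carries_step c₁ (U := d.base) (by rw [h₁]) 0
      rwa [h₁', h₁'] at this
    · exact keep₁ iPQ hBQ iQZ.symm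
  have step₂ : M.t c₂ * M.t f * (M.t c₂)⁻¹ = M.t d := by
    refine M.conj c₂ f d rfl fun i => ?_
    rw [fpc]
    fin_cases i
    · exact keep₂ iAQ.symm iAC.symm hAZ.symm
    · exact keep₂ hBQ.symm iBC.symm iBZ.symm
    · have := carries_step c₂ (U := d.base) (by rw [h₂]) 0
      rwa [h₂', h₂'] at this
  rw [step₁, step₂]

/-- Conjugation by a product when the suffixes keep all intermediate pieces incomparable. -/
lemma conj_marked (w : List (NC S)) (D : ℕ) (d d' : NC S) (hbase : d'.base = d.base)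
    (A A' : Fin 3 → Pc Γ) (r : Fin 3 → Wd) (hr : ∀ i, 5 ≤ (r i).length)
    (hd : ∀ i, d.pc i = ((A i).1, (A i).2 ++ r i))
    (hd' : ∀ i, d'.pc i = ((A' i).1, (A' i).2 ++ r i))
    (hT : ∀ i, Track w d.base (A i) (A' i)) (hD : ∀ i, (A i).2.length + wtw w ≤ D)
    (hI : ∀ i j, i ≠ j → ∀ x y : Wd, x.length ≤ D → y.length ≤ D → Inc (x ++ r i) (y ++ r j)) :
    M.ev w * M.t d * (M.ev w)⁻¹ = M.t d' := by
  induction w generalizing d' A' with
  | nil =>
    have : d' = d := NC.ext' hbase fun i => by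
      rw [hd, hd', show A' i = A i from hT i]
    simp [this]
  | cons c w ih =>
    choose m hm hc using hT
    simp only [wtw_cons] at hD
    have hml : ∀ i, (m i).2.length ≤ D := fun i => by
      have := (hm i).length_le.1
      have := hD i
      omega
    let f : NC S := mkNC d.clopen (fun i => ((m i).1, (m i).2 ++ r i))
      (fun i => by simp; have := hr i; omega)
      (fun i j h => hI i j h _ _ (hml i) (hml j))
    have e1 := ih f rfl m (fun i => rfl) hm fun i => by have := hD i; omega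
    have e2 : M.t c * M.t f * (M.t c)⁻¹ = M.t d' := M.conj c f d' hbase fun i => by
      rw [hd']
      exact (hc i).app (r i)
    rw [← e2, ← e1, ev_cons]
    group

/-- Three spare pieces and the three auxiliary cycles of `tri`. -/
lemma spare {V : Set S.X} (hV : IsClopen V) (d₀ : NC S) (q : Pc Γ) (r : Wd) (s : Fin 3 → Wd)
    {D : ℕ} (hd₀ : ∀ i, (d₀.pre i).length ≤ D) (hq : q.2.length ≤ D) (hs : ∀ k, 5 ≤ (s k).length)
    (incm : ∀ (k : Fin 3) (x y : Wd), x.length ≤ D → y.length ≤ D → Inc (x ++ s k) (y ++ r))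
    (incmm : ∀ (k l : Fin 3), k ≠ l → ∀ x y : Wd, x.length ≤ D → y.length ≤ D →
      Inc (x ++ s k) (y ++ s l)) :
    ∃ e c₁ c₂ : NC S, e.base = V ∧ c₁.base = V ∧ c₂.base = V ∧
      (∀ j, e.pc j = ![(d₀.shift 0, d₀.pre 0 ++ r), (q.1, q.2 ++ s 0), (q.1, q.2 ++ s 1)] j) ∧
      (∀ j, c₁.pc j = ![(q.1, q.2 ++ s 0), (d₀.shift 1, d₀.pre 1 ++ r), (q.1, q.2 ++ s 2)] j) ∧
      (∀ j, c₂.pc j = ![(q.1, q.2 ++ s 1), (d₀.shift 2, d₀.pre 2 ++ r), (q.1, q.2 ++ s 2)] j) ∧
      M.t ((d₀.onBase V hV).app r) = M.t c₂ * (M.t c₁ * M.t e * (M.t c₁)⁻¹) * (M.t c₂)⁻¹ := by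
  have hlong : ∀ i, 5 ≤ (d₀.pre i ++ r).length := fun i => by
    have := d₀.long i
    simp
    omega
  have hlong' : ∀ k, 5 ≤ (q.2 ++ s k).length := fun k => by
    have := hs k
    simp
    omega
  have i0 : ∀ k j, Inc (d₀.pre j ++ r) (q.2 ++ s k) := fun k j => (incm k _ _ hq (hd₀ j)).symm
  have i1 : ∀ k l, k ≠ l → Inc (q.2 ++ s k) (q.2 ++ s l) := fun k l h => incmm k l h _ _ hq hq
  refine ⟨mkNC hV ![(d₀.shift 0, d₀.pre 0 ++ r), (q.1, q.2 ++ s 0), (q.1, q.2 ++ s 1)] ?_ ?_,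
    mkNC hV ![(q.1, q.2 ++ s 0), (d₀.shift 1, d₀.pre 1 ++ r), (q.1, q.2 ++ s 2)] ?_ ?_,
    mkNC hV ![(q.1, q.2 ++ s 1), (d₀.shift 2, d₀.pre 2 ++ r), (q.1, q.2 ++ s 2)] ?_ ?_,
    rfl, rfl, rfl, fun _ => rfl, fun _ => rfl, fun _ => rfl,
    M.tri _ _ _ _ rfl rfl rfl (fun _ => rfl) (fun _ => rfl) (fun _ => rfl) (i0 2 0) (i0 1 1)⟩
  · intro i; fin_cases i; exacts [hlong 0, hlong' 0, hlong' 1]
  · intro i j h
    have := pair_inc (i0 0 0) (i0 1 0) (i1 0 1 (by decide)) i j h
    fin_cases i <;> fin_cases j <;> first | exact absurd rfl h | exact this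
  · intro i; fin_cases i; exacts [hlong' 0, hlong 1, hlong' 2]
  · intro i j h
    have := pair_inc (i0 0 1).symm (i1 0 2 (by decide)) (i0 2 1) i j h
    fin_cases i <;> fin_cases j <;> first | exact absurd rfl h | exact this
  · intro i; fin_cases i; exacts [hlong' 1, hlong 2, hlong' 2]
  · intro i j h
    have := pair_inc (i0 1 2).symm (i1 1 2 (by decide)) (i0 2 2) i j h
    fin_cases i <;> fin_cases j <;> first | exact absurd rfl h | exact this

/-- `conj_marked` for three given pieces. -/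
lemma conj_triple (w : List (NC S)) (D : ℕ) {d d' : NC S} {V : Set S.X} (hV : V = d.base)
    (hV' : d'.base = V) {A₀ A₁ A₂ A₀' A₁' A₂' : Pc Γ} {r₀ r₁ r₂ : Wd}
    (hd : ∀ i, d.pc i = ![(A₀.1, A₀.2 ++ r₀), (A₁.1, A₁.2 ++ r₁), (A₂.1, A₂.2 ++ r₂)] i)
    (hd' : ∀ i, d'.pc i = ![(A₀'.1, A₀'.2 ++ r₀), (A₁'.1, A₁'.2 ++ r₁), (A₂'.1, A₂'.2 ++ r₂)] i)
    (t₀ : Track w V A₀ A₀') (t₁ : Track w V A₁ A₁') (t₂ : Track w V A₂ A₂')
    (l₀ : A₀.2.length + wtw w ≤ D) (l₁ : A₁.2.length + wtw w ≤ D) (l₂ : A₂.2.length + wtw w ≤ D)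
    (f₀ : 5 ≤ r₀.length) (f₁ : 5 ≤ r₁.length) (f₂ : 5 ≤ r₂.length)
    (i₀₁ : ∀ x y : Wd, x.length ≤ D → y.length ≤ D → Inc (x ++ r₀) (y ++ r₁))
    (i₀₂ : ∀ x y : Wd, x.length ≤ D → y.length ≤ D → Inc (x ++ r₀) (y ++ r₂))
    (i₁₂ : ∀ x y : Wd, x.length ≤ D → y.length ≤ D → Inc (x ++ r₁) (y ++ r₂)) :
    M.ev w * M.t d * (M.ev w)⁻¹ = M.t d' := by
  subst hV
  refine M.conj_marked w D d d' hV' ![A₀, A₁, A₂] ![A₀', A₁', A₂'] ![r₀, r₁, r₂] ?_
    (fun i => by rw [hd]; fin_cases i <;> rfl) (fun i => by rw [hd']; fin_cases i <;> rfl) ?_ ?_ ?_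
  · intro i; fin_cases i; exacts [f₀, f₁, f₂]
  · intro i; fin_cases i; exacts [t₀, t₁, t₂]
  · intro i; fin_cases i; exacts [l₀, l₁, l₂]
  · intro i j h x y hx hy
    have key : ∀ i j : Fin 3, i ≠ j → Inc (x ++ ![r₀, r₁, r₂] i) (y ++ ![r₀, r₁, r₂] j)
      | 0, 0, h | 1, 1, h | 2, 2, h => absurd rfl h
      | 0, 1, _ => i₀₁ x y hx hy
      | 1, 0, _ => (i₀₁ y x hy hx).symm
      | 0, 2, _ => i₀₂ x y hx hy
      | 2, 0, _ => (i₀₂ y x hy hx).symm
      | 1, 2, _ => i₁₂ x y hx hy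
      | 2, 1, _ => (i₁₂ y x hy hx).symm
    exact key i j h

/-- A product carrying the pieces of `d` onto those of `d'` conjugates the lifts. -/
theorem key (w : List (NC S)) (d d' : NC S) (hbase : d'.base = d.base)
    (hT : ∀ i, Track w d.base (d.pc i) (d'.pc i)) :
    M.ev w * M.t d * (M.ev w)⁻¹ = M.t d' := by
  suffices h : ∀ h : IsClopen d.base,
      M.ev w * M.t (d.onBase d.base h) * (M.ev w)⁻¹ = M.t (d'.onBase d.base h) by
    have e : d'.onBase d.base d.clopen = d' := NC.ext' hbase.symm fun _ => rfl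
    have e' : d.onBase d.base d.clopen = d := NC.ext' rfl fun _ => rfl
    simpa only [e, e'] using h d.clopen
  refine exists_track w d.clopen (1, List.replicate (wtw w) false) (by simp)
    (fun V => ∀ h : IsClopen V,
      M.ev w * M.t (d.onBase V h) * (M.ev w)⁻¹ = M.t (d'.onBase V h))
    (fun V V' hV hV' hdis h1 h2 _ => ?_) fun V hV hVU ⟨b, hb⟩ _ => ?_
  · rw [M.t_onBase_union d hV hV' hdis, M.t_onBase_union d' hV hV' hdis, ← h1 hV, ← h2 hV']
    group
  set D := d.wt + d'.wt + 2 * wtw w with hDdef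
  rw [M.t_app (d.onBase V hV) (sufLen D), M.t_app (d'.onBase V hV) (sufLen D), ev_map, ev_map]
  refine conj_ev_prod _ _ _ _ fun r hr => ?_
  rw [mem_words] at hr
  obtain ⟨f, hf, hfar⟩ := exists_far D r
  have h5 : 5 ≤ sufLen D := by simp only [sufLen]; omega
  have h5' : ∀ k : Fin 3, 5 ≤ (mark D (f k)).length := fun k => by simpa using h5
  have hA : ∀ (i : Fin 3), (d.pre i).length ≤ D ∧ (d'.pre i).length ≤ D := fun i => by
    have := d.length_le_wt i
    have := d'.length_le_wt i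
    omega
  have hp : (List.replicate (wtw w) false).length ≤ D := by simp; omega
  have hb' : b.2.length ≤ D := by
    have := hb.length_le.1
    simp at this
    omega
  have incm : ∀ (k : Fin 3) (x y : Wd), x.length ≤ D → y.length ≤ D →
      Inc (x ++ mark D (f k)) (y ++ r) := fun k x y hx hy => inc_mark hr (hfar k) hx hy
  have incmm : ∀ (k l : Fin 3), k ≠ l → ∀ x y : Wd, x.length ≤ D → y.length ≤ D →
      Inc (x ++ mark D (f k)) (y ++ mark D (f l)) := fun k l hkl x y hx hy =>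
    inc_mark (length_mark D _) (far_mark D fun e => hkl (hf e)) hx hy
  obtain ⟨e, c₁, c₂, he, h₁, h₂, he', h₁', h₂', eq⟩ :=
    M.spare hV d (1, List.replicate (wtw w) false) r (mark D ∘ f) (fun i => (hA i).1) hp h5'
      incm incmm
  obtain ⟨e', c₁', c₂', ge, g₁, g₂, ge', g₁', g₂', eq'⟩ :=
    M.spare hV d' b r (mark D ∘ f) (fun i => (hA i).2) hb' h5' incm incmm
  have tr : ∀ i, Track w V (d.pc i) (d'.pc i) := fun i => (hT i).mono hVU
  have hwd : ∀ i, (d.pc i).2.length + wtw w ≤ D := fun i => by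
    have := d.length_le_wt i
    show (d.pre i).length + wtw w ≤ D
    omega
  have hwp : (List.replicate (wtw w) false).length + wtw w ≤ D := by simp; omega
  have hr5 : 5 ≤ r.length := hr ▸ h5
  have k₀ : M.ev w * M.t e * (M.ev w)⁻¹ = M.t e' :=
    M.conj_triple w D (he ▸ rfl) ge he' ge' (tr 0) hb hb (hwd 0) hwp hwp hr5 (h5' 0) (h5' 1)
      (fun x y hx hy => (incm 0 y x hy hx).symm) (fun x y hx hy => (incm 1 y x hy hx).symm)
      (incmm 0 1 (by decide))
  have k₁ : M.ev w * M.t c₁ * (M.ev w)⁻¹ = M.t c₁' :=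
    M.conj_triple w D (h₁ ▸ rfl) g₁ h₁' g₁' hb (tr 1) hb hwp (hwd 1) hwp (h5' 0) hr5 (h5' 2)
      (incm 0) (incmm 0 2 (by decide)) (fun x y hx hy => (incm 2 y x hy hx).symm)
  have k₂ : M.ev w * M.t c₂ * (M.ev w)⁻¹ = M.t c₂' :=
    M.conj_triple w D (h₂ ▸ rfl) g₂ h₂' g₂' hb (tr 2) hb hwp (hwd 2) hwp (h5' 1) hr5 (h5' 2)
      (incm 1) (incmm 1 2 (by decide)) (fun x y hx hy => (incm 2 y x hy hx).symm)
  show M.ev w * M.t ((d.onBase V hV).app r) * (M.ev w)⁻¹ = M.t ((d'.onBase V hV).app r)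
  rw [eq, eq', ← k₀, ← k₁, ← k₂]
  group

/-! ### Centrality -/

/-- A product whose permutation maps the pieces of `d` affinely onto those of `d'` conjugates the
lifts. -/
theorem conj_maps (hfree : ∀ (x : S.X) (γ : Γ), S.act γ x = x → γ = 1) (w : List (NC S))
    (d d' : NC S) (hbase : d'.base = d.base)
    (hm : ∀ i, ∀ x ∈ d.base, ∀ v, M.hom (M.ev w) (S.act (d.shift i) x, SFT.cat (d.pre i) v) =
      (S.act (d'.shift i) x, SFT.cat (d'.pre i) v)) :
    M.ev w * M.t d * (M.ev w)⁻¹ = M.t d' := by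
  rw [M.t_app d (wtw w), M.t_app d' (wtw w), ev_map, ev_map]
  refine conj_ev_prod _ _ _ _ fun r hr => ?_
  rw [mem_words] at hr
  have hm' : ∀ i, ∀ x ∈ (d.app r).base, ∀ v,
      M.hom (M.ev w) (S.act ((d.app r).pc i).1 x, SFT.cat ((d.app r).pc i).2 v) =
        (S.act ((d'.app r).pc i).1 x, SFT.cat ((d'.app r).pc i).2 v) := fun i x hx v => by
    simp only [NC.app, NC.pc, cat_app]
    exact hm i x hx _
  have hbase' : (d'.app r).base = (d.app r).base := hbase
  generalize hc : d.app r = c at hm' hbase' ⊢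
  generalize hc' : d'.app r = c' at hm' hbase' ⊢
  have hlen : ∀ i, wtw w ≤ (c.pc i).2.length := fun i => by
    subst hc
    simp [NC.pc, NC.app, hr]
  let P : Set S.X → Prop := fun V => ∀ h : IsClopen V,
    M.ev w * M.t (c.onBase V h) * (M.ev w)⁻¹ = M.t (c'.onBase V h)
  have hu : ∀ V V', IsClopen V → IsClopen V' → Disjoint V V' → P V → P V' → P (V ∪ V') :=
    fun V V' hV hV' hdis h1 h2 _ => by
      rw [M.t_onBase_union c hV hV' hdis, M.t_onBase_union c' hV hV' hdis, ← h1 hV, ← h2 hV']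
      group
  suffices h : P c.base by
    have e : c.onBase c.base c.clopen = c := NC.ext' rfl fun _ => rfl
    have e' : c'.onBase c.base c.clopen = c' := NC.ext' hbase'.symm fun _ => rfl
    simpa only [e, e'] using h c.clopen
  refine exists_track w c.clopen (c.pc 0) (hlen 0) P hu fun V₀ hV₀ hs₀ ⟨b₀, hb₀⟩ => ?_
  refine exists_track w hV₀ (c.pc 1) (hlen 1) P hu fun V₁ hV₁ hs₁ ⟨b₁, hb₁⟩ => ?_
  refine exists_track w hV₁ (c.pc 2) (hlen 2) P hu fun V hV hs ⟨b₂, hb₂⟩ => ?_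
  intro _
  rcases V.eq_empty_or_nonempty with hemp | ⟨x, hx⟩
  · simp [M.t_empty (c.onBase V hV) hemp, M.t_empty (c'.onBase V hV) hemp]
  · refine M.key w (c.onBase V hV) (c'.onBase V hV) rfl fun i => ?_
    have hb : ∃ b, Track w V (c.pc i) b := by
      fin_cases i
      exacts [⟨_, hb₀.mono (hs.trans hs₁)⟩, ⟨_, hb₁.mono hs⟩, ⟨_, hb₂⟩]
    obtain ⟨b, hb⟩ := hb
    have hxc : x ∈ c.base := hs₀ (hs₁ (hs hx))
    have sem := fun v => (hm' i x hxc v).symm.trans (M.hom_track hb hx v)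
    have e1 : S.act (c'.pc i).1 x = S.act b.1 x := congrArg Prod.fst (sem fun _ => false)
    have e2 : (c'.pc i).2 = b.2 := eq_of_cat fun v => congrArg Prod.snd (sem v)
    have e3 : (c'.pc i).1 = b.1 := by
      have h := hfree x ((c'.pc i).1⁻¹ * b.1)
        (by rw [← S.act_act, ← e1, S.act_act]; simp [S.act_one])
      rwa [inv_mul_eq_one] at h
    have : b = c'.pc i := Prod.ext e3.symm e2.symm
    exact this ▸ hb

/-- A product with trivial permutation is central. -/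
theorem central (hfree : ∀ (x : S.X) (γ : Γ), S.act γ x = x → γ = 1) (w : List (NC S))
    (hw : M.hom (M.ev w) = 1) (d : NC S) : M.ev w * M.t d * (M.ev w)⁻¹ = M.t d :=
  M.conj_maps hfree w d d rfl fun i x _ v => by simp [hw]

lemma commute_ev (hfree : ∀ (x : S.X) (γ : Γ), S.act γ x = x → γ = 1) (w w' : List (NC S))
    (hw : M.hom (M.ev w) = 1) : Commute (M.ev w) (M.ev w') := by
  induction w' with
  | nil => simp
  | cons c w' ih =>
    rw [ev_cons]
    exact Commute.mul_right (mul_inv_eq_iff_eq_mul.1 (M.central hfree w hw c)) ih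

end Sys

end Vale.Agent.P193.Bridge
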