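import Vale.Agent.P193.Bridge.Extend
import Vale.Agent.P193.Pres.Interface
import Vale.Agent.P193.Faithful.Main

/-!
P193, W6: a model makes the group of the subshift finitely presented.
-/

namespace Vale.Agent.P193.Bridge

open BH Prefix Equiv

variable {Γ : Type} [Group Γ] {S : SFT Γ}

lemma NC.nice (c : NC S) : Pres.Nice c.cyc := ⟨c.long, c.inc⟩

lemma mem_at'_iff {c : NC S} {j : Fin 3} {y : S.X} :
    y ∈ c.at' j ↔ y ∈ S.act (c.shift j) '' c.base := by
  rw [SFT.image_act]
  rfl

lemma carries_pres {c : NC S} {U : Set S.X} {a b : Pc Γ} (h : Carries c U a b) :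
    Pres.Carries c.cyc U a.1 a.2 b.1 b.2 := by
  rcases h with ⟨hk, rfl⟩ | ⟨j, r, h1, h2, rfl⟩
  · refine Or.inl ⟨fun j => (hk j).imp_right fun h => ⟨h.1, Set.disjoint_left.2 ?_⟩, rfl, rfl⟩
    rintro _ ⟨x, hx, rfl⟩ hy
    exact h.2 x hx (mem_at'_iff.2 hy)
  · refine Or.inr ⟨j, r, h1, ?_, rfl, rfl⟩
    rintro _ ⟨x, hx, rfl⟩
    exact mem_at'_iff.1 (h2 x hx)

/-- The system of a model. -/
def Sys.ofModel (M : Pres.Model S) : Sys S M.E where
  t c := M.t c.cyc
  hom := M.hom
  hom_t c := M.hom_t _ c.nice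
  union c c₁ c₂ h1 h2 hd hb :=
    M.union _ _ _ c.nice (funext fun j => congrArg Prod.fst (h1 j))
      (funext fun j => congrArg Prod.snd (h1 j)) (funext fun j => congrArg Prod.fst (h2 j))
      (funext fun j => congrArg Prod.snd (h2 j)) hd hb
  split c := M.split _ _ _ c.nice rfl rfl rfl rfl (fun _ => rfl) fun _ => rfl
  repar c c' γ hb hs hp := M.repar _ _ γ c.nice hb hs hp
  conj c d d' hb h := M.conj _ _ _ c.nice d.nice d'.nice hb fun i => carries_pres (h i)

/-- A retract of a finitely presented group. -/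
lemma fp_of_retract {E G : Type} [Group E] [Group G] (hE : Group.IsFinitelyPresented E)
    (r : E →* G) (s : G →* E) (h : ∀ g, r (s g) = g) : Group.IsFinitelyPresented G := by
  have := hE
  obtain ⟨n, φ, hφ, -⟩ := hE.out
  let X : Set E := Set.range fun i : Fin n => (φ (FreeGroup.of i))⁻¹ * s (r (φ (FreeGroup.of i)))
  refine Group.IsFinitelyPresented.of_surjective r (fun g => ⟨s g, h g⟩)
    ⟨X, Set.finite_range _, le_antisymm (Subgroup.normalClosure_le_normal ?_) fun e he => ?_⟩
  · rintro _ ⟨i, rfl⟩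
    simp [h]
  · have key : (QuotientGroup.mk' (Subgroup.normalClosure X)).comp ((s.comp r).comp φ) =
        (QuotientGroup.mk' (Subgroup.normalClosure X)).comp φ := by
      refine FreeGroup.ext_hom _ _ fun i => ?_
      simp only [MonoidHom.comp_apply, QuotientGroup.mk'_apply]
      have hi : (φ (FreeGroup.of i))⁻¹ * s (r (φ (FreeGroup.of i))) ∈ Subgroup.normalClosure X :=
        Subgroup.subset_normalClosure ⟨i, rfl⟩
      exact (QuotientGroup.eq.2 hi).symm
    obtain ⟨w, rfl⟩ := hφ e
    have := DFunLike.congr_fun key w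
    simp only [MonoidHom.comp_apply, MonoidHom.mem_ker.1 he, map_one] at this
    exact (QuotientGroup.eq_one_iff _).1 this.symm

/-- A model makes the group of the subshift finitely presented. -/
theorem fullGroup_finitelyPresented (M : Pres.Model S) (hS : S.MinimalFree) :
    Group.IsFinitelyPresented S.fullGroup := by
  let Λ := (Sys.ofModel M).lift hS.free
  let e : Λ.E ≃* S.fullGroup :=
    (MonoidHom.ofInjective (faithful Γ S hS Λ)).trans (MulEquiv.subgroupCongr Λ.range_proj)
  have he : ∀ g, (e g : Perm S.Pt) = Λ.proj g := fun _ => rfl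
  refine fp_of_retract M.fp (M.hom.codRestrict S.fullGroup M.hom_mem)
    ((Sys.ofModel M).sub.subtype.comp e.symm.toMonoidHom) fun g => Subtype.ext ?_
  have := he (e.symm g)
  rw [e.apply_symm_apply] at this
  exact this.symm

/-- W5 gives `PresentationStatement`. -/
theorem presentation_of_models
    (h : ∀ (Γ : Type) [Group Γ], Group.IsFinitelyPresented Γ → ∀ S : SFT Γ, S.MinimalFree →
      S.Rigid → Nonempty (Pres.Model S)) : PresentationStatement :=
  fun Γ _ hΓ S hmf hrig =>
    (h Γ hΓ S hmf hrig).elim fun M => fullGroup_finitelyPresented M hmf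

end Vale.Agent.P193.Bridge
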