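import Vale.Agent.P193.BH.Defs
import Vale.Agent.P193.Prefix.Moves

/-!
P193, W6: three-cycles of pieces with long incomparable prefixes, single pieces moved by one of them
or by a word in them, and groups over the full group with lifts of these cycles.
-/

namespace Vale.Agent.P193.Bridge

open BH Prefix Equiv

variable {Γ : Type} [Group Γ]

/-! ### Sequences with a given beginning -/

lemma cat_get (a : Wd) (w : ℕ → Bool) {i : ℕ} (h : i < a.length) : SFT.cat a w i = a[i] := by
  simp [SFT.cat, h]

lemma cat_add (a : Wd) (w : ℕ → Bool) (i : ℕ) : SFT.cat a w (a.length + i) = w i := by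
  simp [SFT.cat]

lemma cat_app (a b : Wd) (w : ℕ → Bool) :
    SFT.cat (a ++ b) w = SFT.cat a (SFT.cat b w) := by
  funext i
  simp only [SFT.cat, List.length_append]
  by_cases h1 : i < a.length
  · simp [h1, show i < a.length + b.length by omega]
  · by_cases h2 : i - a.length < b.length
    · simp [h1, h2, show i < a.length + b.length by omega, List.getElem_append_right (not_lt.1 h1)]
    · simp [h1, h2, show ¬ i < a.length + b.length by omega, Nat.sub_sub]

lemma cat_cancel {a : Wd} {v w : ℕ → Bool} (h : SFT.cat a v = SFT.cat a w) : v = w :=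
  funext fun i => by simpa [cat_add] using congrFun h (a.length + i)

lemma prefix_of_cat {a b : Wd} {v w : ℕ → Bool} (h : SFT.cat a v = SFT.cat b w)
    (hl : a.length ≤ b.length) : a <+: b := by
  rw [List.prefix_iff_eq_take]
  refine List.ext_getElem (by simp [hl]) fun i h1 h2 => ?_
  have := congrFun h i
  rw [cat_get a v h1, cat_get b w (h1.trans_le hl)] at this
  simp [this]

lemma comparable_of_cat {a b : Wd} {v w : ℕ → Bool} (h : SFT.cat a v = SFT.cat b w) :
    ¬ Inc a b := by
  rcases le_total a.length b.length with hl | hl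
  · exact fun hi => hi.1 (prefix_of_cat h hl)
  · exact fun hi => hi.2 (prefix_of_cat h.symm hl)

lemma eq_of_cat {a b : Wd} (h : ∀ v, SFT.cat a v = SFT.cat b v) : a = b := by
  have key : ∀ {a b : Wd}, (∀ v, SFT.cat a v = SFT.cat b v) → a.length ≤ b.length → a = b := by
    intro a b h hl
    obtain ⟨r, rfl⟩ := prefix_of_cat (h fun _ => false) hl
    rcases r with _ | ⟨x, r⟩
    · simp
    · have hx : ∀ v : ℕ → Bool, v 0 = x := fun v => by
        have := congrFun (h v) (a.length + 0)
        rwa [cat_app, cat_add, cat_add, cat_get _ _ (Nat.succ_pos _)] at this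
      exact absurd ((hx fun _ => !x)) (by simp)
  rcases le_total a.length b.length with hl | hl
  · exact key h hl
  · exact (key (fun v => (h v).symm) hl).symm

lemma inc_append_left {p a b : Wd} : Inc (p ++ a) (p ++ b) ↔ Inc a b := by
  simp [Inc, List.prefix_append_right_inj]

lemma inc_extend {a b : Wd} (h : Inc a b) (r s : Wd) : Inc (a ++ r) (b ++ s) :=
  ((h.of_prefix (List.prefix_append b s)).symm.of_prefix (List.prefix_append a r)).symm

/-- The words of length `n`. -/
def words : ℕ → List Wd
  | 0 => [[]]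
  | n + 1 => (words n).map (List.cons false) ++ (words n).map (List.cons true)

lemma mem_words {n : ℕ} {w : Wd} : w ∈ words n ↔ w.length = n := by
  induction n generalizing w with
  | zero => simp [words]
  | succ n ih =>
    rcases w with _ | ⟨b, w⟩
    · simp [words]
    · cases b <;> simp [words, ih]

lemma nodup_words : ∀ n, (words n).Nodup
  | 0 => by simp [words]
  | n + 1 => by
    rw [words, List.nodup_append]
    refine ⟨(nodup_words n).map (List.cons_injective), (nodup_words n).map (List.cons_injective), ?_⟩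
    simp

/-! ### Cycles -/

variable (S : SFT Γ)

/-- A three-cycle of pieces with long, pairwise incomparable prefixes. -/
structure NC where
  base : Set S.X
  clopen : IsClopen base
  shift : Fin 3 → Γ
  pre : Fin 3 → Wd
  long : ∀ i, 5 ≤ (pre i).length
  inc : ∀ i j, i ≠ j → Inc (pre i) (pre j)

/-- A translation and a word. -/
abbrev Pc (Γ : Type) := Γ × Wd

variable {S}

namespace NC

variable (c : NC S)

/-- One of the three pieces. -/
def pc (j : Fin 3) : Pc Γ := (c.shift j, c.pre j)

/-- The cycle as a cycle of `BH`. -/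
def cyc : S.Cyc where
  base := c.base
  clopen := c.clopen
  shift := c.shift
  pre := c.pre
  disjoint i j h := Set.disjoint_left.2 fun p hp hp' => by
    obtain ⟨x, -, v, rfl⟩ := hp
    obtain ⟨y, -, w, e⟩ := hp'
    exact comparable_of_cat (congrArg Prod.snd e) (c.inc i j h)

variable {c}

lemma ext' {d : NC S} (hb : c.base = d.base) (hp : ∀ j, c.pc j = d.pc j) : c = d := by
  obtain ⟨b, _, s, p, _, _⟩ := c
  obtain ⟨b', _, s', p', _, _⟩ := d
  obtain rfl : b = b' := hb
  obtain rfl : s = s' := funext fun j => congrArg Prod.fst (hp j)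
  obtain rfl : p = p' := funext fun j => congrArg Prod.snd (hp j)
  rfl

variable (c)

/-- The cycle over another base. -/
def onBase (U : Set S.X) (hU : IsClopen U) : NC S := { c with base := U, clopen := hU }

/-- The prefixes followed by `r`. -/
def app (r : Wd) : NC S where
  base := c.base
  clopen := c.clopen
  shift := c.shift
  pre j := c.pre j ++ r
  long j := (c.long j).trans (by simp)
  inc i j h := inc_extend (c.inc i j h) r r

/-- The prefixes preceded by `p`. -/
def copy (p : Wd) : NC S where
  base := c.base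
  clopen := c.clopen
  shift := c.shift
  pre j := p ++ c.pre j
  long j := (c.long j).trans (by simp)
  inc i j h := inc_append_left.2 (c.inc i j h)

lemma app_nil : c.app [] = c := ext' rfl fun j => by simp [app, pc]

lemma app_app (r s : Wd) : (c.app r).app s = c.app (r ++ s) :=
  ext' rfl fun j => by simp [app, pc]

lemma copy_copy (p q : Wd) : (c.copy q).copy p = c.copy (p ++ q) :=
  ext' rfl fun j => by simp [copy, pc]

/-- The reversed cycle. -/
def rev : NC S where
  base := c.base
  clopen := c.clopen
  shift j := c.shift (-j)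
  pre j := c.pre (-j)
  long j := c.long _
  inc i j h := c.inc _ _ fun e => h (neg_inj.1 e)

/-- Bound for the change of length of a word. -/
def wt : ℕ := (c.pre 0).length + (c.pre 1).length + (c.pre 2).length

lemma length_le_wt : ∀ j, (c.pre j).length ≤ c.wt
  | 0 => by simp only [wt]; omega
  | 1 => by simp only [wt]; omega
  | 2 => by simp only [wt]; omega

/-- The part of the `j`th piece of the first factor. -/
def at' (j : Fin 3) : Set S.X := {x | S.act (c.shift j)⁻¹ x ∈ c.base}

lemma isClopen_at' (j : Fin 3) : IsClopen (c.at' j) :=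
  c.clopen.preimage (S.continuous_act _)

lemma act_mem_at' {j : Fin 3} {x : S.X} : S.act (c.shift j) x ∈ c.at' j ↔ x ∈ c.base := by
  simp [at', S.act_act, S.act_one]

end NC

/-! ### Moves of single pieces -/

/-- `c` fixes the piece `a` over `U`. -/
def Keeps (c : NC S) (U : Set S.X) (a : Pc Γ) : Prop :=
  ∀ j, Inc (c.pre j) a.2 ∨ (c.pre j <+: a.2 ∧ ∀ x ∈ U, S.act a.1 x ∉ c.at' j)

/-- `c` carries the piece `a` over `U` affinely onto `b`. -/
def Carries (c : NC S) (U : Set S.X) (a b : Pc Γ) : Prop :=
  (Keeps c U a ∧ b = a) ∨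
    ∃ j r, a.2 = c.pre j ++ r ∧ (∀ x ∈ U, S.act a.1 x ∈ c.at' j) ∧
      b = (c.shift (j + 1) * (c.shift j)⁻¹ * a.1, c.pre (j + 1) ++ r)

lemma Carries.mono {c : NC S} {U V : Set S.X} {a b : Pc Γ} (h : Carries c U a b) (hV : V ⊆ U) :
    Carries c V a b := by
  rcases h with ⟨hk, rfl⟩ | ⟨j, r, h1, h2, h3⟩
  · exact Or.inl ⟨fun j => (hk j).imp_right fun h => ⟨h.1, fun x hx => h.2 x (hV hx)⟩, rfl⟩
  · exact Or.inr ⟨j, r, h1, fun x hx => h2 x (hV hx), h3⟩

lemma Carries.app {c : NC S} {U : Set S.X} {a b : Pc Γ} (h : Carries c U a b) (s : Wd) :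
    Carries c U (a.1, a.2 ++ s) (b.1, b.2 ++ s) := by
  rcases h with ⟨hk, rfl⟩ | ⟨j, r, h1, h2, rfl⟩
  · exact Or.inl ⟨fun j => (hk j).imp (fun h => h.of_prefix (List.prefix_append _ _))
      fun h => ⟨h.1.trans (List.prefix_append _ _), h.2⟩, rfl⟩
  · exact Or.inr ⟨j, r ++ s, by simp [h1], h2, by simp⟩

lemma Carries.length_le {c : NC S} {U : Set S.X} {a b : Pc Γ} (h : Carries c U a b) :
    b.2.length ≤ a.2.length + c.wt ∧ a.2.length ≤ b.2.length + c.wt := by
  rcases h with ⟨-, rfl⟩ | ⟨j, r, h1, -, rfl⟩
  · omega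
  · have := c.length_le_wt j
    have := c.length_le_wt (j + 1)
    simp [h1]
    omega

lemma Carries.copy {c : NC S} {U : Set S.X} {a b : Pc Γ} (h : Carries c U a b) (p : Wd) :
    Carries (c.copy p) U (a.1, p ++ a.2) (b.1, p ++ b.2) := by
  rcases h with ⟨hk, rfl⟩ | ⟨j, r, h1, h2, rfl⟩
  · exact Or.inl ⟨fun j => (hk j).imp inc_append_left.2
      fun h => ⟨(List.prefix_append_right_inj p).2 h.1, h.2⟩, rfl⟩
  · exact Or.inr ⟨j, r, by simp [NC.copy, h1], h2, by simp [NC.copy]⟩

lemma keeps_of_inc {c : NC S} {U : Set S.X} {a : Pc Γ} (h : ∀ j, Inc (c.pre j) a.2) :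
    Carries c U a a :=
  Or.inl ⟨fun j => Or.inl (h j), rfl⟩

/-! ### Words -/

/-- `Track w U a b`: the factors of the product `w`, last one first, carry `a` onto `b`. -/
def Track : List (NC S) → Set S.X → Pc Γ → Pc Γ → Prop
  | [], _, a, b => b = a
  | c :: w, U, a, b => ∃ m, Track w U a m ∧ Carries c U m b

/-- Bound for the change of length of a word. -/
def wtw (w : List (NC S)) : ℕ := (w.map NC.wt).sum

@[simp] lemma wtw_nil : wtw ([] : List (NC S)) = 0 := rfl

@[simp] lemma wtw_cons (c : NC S) (w : List (NC S)) : wtw (c :: w) = c.wt + wtw w := rfl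

namespace Track

variable {w w' : List (NC S)} {U V : Set S.X} {a b m : Pc Γ}

lemma append (h : Track w' U a m) (h' : Track w U m b) : Track (w ++ w') U a b := by
  induction w generalizing b with
  | nil => obtain rfl : b = m := h'; exact h
  | cons c w ih =>
    obtain ⟨k, hk, hc⟩ := h'
    exact ⟨k, ih hk, hc⟩

lemma single {c : NC S} (h : Carries c U a b) : Track [c] U a b := ⟨a, rfl, h⟩

lemma mono (h : Track w U a b) (hV : V ⊆ U) : Track w V a b := by
  induction w generalizing b with
  | nil => exact h
  | cons c w ih =>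
    obtain ⟨k, hk, hc⟩ := h
    exact ⟨k, ih hk, hc.mono hV⟩

lemma app (h : Track w U a b) (s : Wd) : Track w U (a.1, a.2 ++ s) (b.1, b.2 ++ s) := by
  induction w generalizing b with
  | nil => obtain rfl : b = a := h; exact rfl
  | cons c w ih =>
    obtain ⟨k, hk, hc⟩ := h
    exact ⟨(k.1, k.2 ++ s), ih hk, hc.app s⟩

lemma length_le (h : Track w U a b) :
    b.2.length ≤ a.2.length + wtw w ∧ a.2.length ≤ b.2.length + wtw w := by
  induction w generalizing b with
  | nil => obtain rfl : b = a := h; simp
  | cons c w ih =>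
    obtain ⟨k, hk, hc⟩ := h
    have := ih hk
    have := hc.length_le
    simp only [wtw_cons]
    omega

lemma keep (h : ∀ c ∈ w, Carries c U a a) : Track w U a a := by
  induction w with
  | nil => rfl
  | cons c w ih =>
    exact ⟨a, ih fun d hd => h d (List.mem_cons_of_mem _ hd), h c List.mem_cons_self⟩

end Track

/-- A list of blocks of which all but one keep the piece at both of its places. -/
lemma track_flatMap {ι : Type} {l : List ι} (hl : l.Nodup) (f : ι → List (NC S)) {i : ι}
    (hi : i ∈ l) {U : Set S.X} {a b : Pc Γ} (h : Track (f i) U a b)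
    (hk : ∀ k ∈ l, k ≠ i → Track (f k) U a a ∧ Track (f k) U b b) :
    Track (l.flatMap f) U a b := by
  induction l with
  | nil => simp at hi
  | cons k l ih =>
    rw [List.nodup_cons] at hl
    rw [List.flatMap_cons]
    rcases List.mem_cons.1 hi with rfl | hi'
    · refine Track.append ?_ h
      clear ih hi
      induction l with
      | nil => rfl
      | cons m l ih' =>
        simp only [List.mem_cons, not_or] at hl
        rw [List.flatMap_cons]
        refine Track.append (ih' ⟨hl.1.2, (List.nodup_cons.1 hl.2).2⟩ fun x hx hne =>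
          hk x ?_ hne) (hk m (by simp) (Ne.symm hl.1.1)).1
        simp only [List.mem_cons] at hx ⊢
        tauto
    · exact Track.append (ih hl.2 hi' fun x hx => hk x (List.mem_cons_of_mem _ hx))
        (hk k List.mem_cons_self fun e => hl.1 (e ▸ hi')).2

/-! ### Groups with lifts -/

variable (S) in
/-- A group over the permutations of the points with lifts of the long incomparable cycles. -/
structure Sys (E : Type) [Group E] where
  t : NC S → E
  hom : E →* Perm S.Pt
  hom_t : ∀ c : NC S, c.cyc.IsPerm S (hom (t c))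
  union : ∀ c c₁ c₂ : NC S, (∀ j, c₁.pc j = c.pc j) → (∀ j, c₂.pc j = c.pc j) →
    Disjoint c₁.base c₂.base → c.base = c₁.base ∪ c₂.base → t c = t c₁ * t c₂
  split : ∀ c : NC S, t c = t (c.app [false]) * t (c.app [true])
  repar : ∀ (c c' : NC S) (γ : Γ), c'.base = S.act γ '' c.base →
    (∀ i, c'.shift i = c.shift i * γ⁻¹) → c'.pre = c.pre → t c' = t c
  conj : ∀ c d d' : NC S, d'.base = d.base →
    (∀ i, Carries c d.base (d.pc i) (d'.pc i)) → t c * t d * (t c)⁻¹ = t d'

namespace Sys

variable {E : Type} [Group E] (M : Sys S E)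

/-- The value of a product. -/
def ev (w : List (NC S)) : E := (w.map M.t).prod

@[simp] lemma ev_nil : M.ev [] = 1 := rfl

@[simp] lemma ev_cons (c : NC S) (w : List (NC S)) : M.ev (c :: w) = M.t c * M.ev w := by
  simp [ev]

lemma ev_append (w w' : List (NC S)) : M.ev (w ++ w') = M.ev w * M.ev w' := by
  simp [ev]

lemma hom_piece (c : NC S) {U : Set S.X} {a b : Pc Γ} (h : Carries c U a b) {x : S.X} (hx : x ∈ U)
    (v : ℕ → Bool) :
    M.hom (M.t c) (S.act a.1 x, SFT.cat a.2 v) = (S.act b.1 x, SFT.cat b.2 v) := by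
  rcases h with ⟨hk, rfl⟩ | ⟨j, r, h1, h2, rfl⟩
  · refine (M.hom_t c).2 _ fun j hp => ?_
    obtain ⟨y, hy, v', e⟩ := hp
    have e1 : S.act b.1 x = S.act (c.shift j) y := congrArg Prod.fst e
    have e2 : SFT.cat b.2 v = SFT.cat (c.pre j) v' := congrArg Prod.snd e
    rcases hk j with hi | ⟨-, hd⟩
    · exact comparable_of_cat e2.symm hi
    · refine hd x hx ?_
      rw [e1]
      exact (c.act_mem_at').2 hy
  · have := (M.hom_t c).1 j (S.act ((c.shift j)⁻¹ * a.1) x)
      (by have := h2 x hx; simpa [NC.at', S.act_act, NC.cyc] using this) (SFT.cat r v)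
    simpa [S.act_act, h1, cat_app, NC.cyc, mul_assoc] using this

lemma hom_track {w : List (NC S)} {U : Set S.X} {a b : Pc Γ} (h : Track w U a b) {x : S.X}
    (hx : x ∈ U) (v : ℕ → Bool) :
    M.hom (M.ev w) (S.act a.1 x, SFT.cat a.2 v) = (S.act b.1 x, SFT.cat b.2 v) := by
  induction w generalizing b with
  | nil => obtain rfl : b = a := h; simp
  | cons c w ih =>
    obtain ⟨m, hm, hc⟩ := h
    rw [ev_cons, map_mul, Perm.mul_apply, ih hm, M.hom_piece c hc hx v]

lemma t_empty (c : NC S) (h : c.base = ∅) : M.t c = 1 := by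
  have := M.union c c c (fun _ => rfl) (fun _ => rfl) (by simp [h]) (by simp)
  simpa using this

/-- Splitting by all words of one length. -/
lemma t_app (c : NC S) : ∀ n, M.t c = M.ev ((words n).map c.app)
  | 0 => by simp [words, c.app_nil]
  | n + 1 => by
    rw [M.split c, t_app (c.app [false]) n, t_app (c.app [true]) n, ← ev_append, words,
      List.map_append, List.map_map, List.map_map]
    have hb : ∀ b : Bool, (c.app [b]).app = c.app ∘ List.cons b := fun b => funext fun r => by
      simp [c.app_app]
    rw [hb, hb]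

lemma conj_ev_prod {ι : Type} (g : E) (l : List ι) (f f' : ι → E)
    (h : ∀ i ∈ l, g * f i * g⁻¹ = f' i) : g * (l.map f).prod * g⁻¹ = (l.map f').prod := by
  induction l with
  | nil => simp
  | cons i l ih =>
    simp only [List.map_cons, List.prod_cons]
    rw [← h i List.mem_cons_self, ← ih fun k hk => h k (List.mem_cons_of_mem _ hk)]
    group

end Sys

end Vale.Agent.P193.Bridge
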