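import Vale.Agent.P193.Bridge.Key
import Vale.Agent.P193.BH.Pieces

/-!
P193, W6: lifts of all three-cycles of pieces in the group generated by the lifts of the nice ones.
A cycle whose prefixes are followed by a long enough word is the image of a nice cycle; the lift of
a cycle is the product over all continuations of one length.
-/

namespace Vale.Agent.P193.Bridge

open BH Prefix Equiv

variable {Γ : Type} [Group Γ] {S : SFT Γ}

namespace Sys

variable {E : Type} [Group E] (M : Sys S E)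

/-- The group generated by the lifts. -/
def sub : Subgroup E := Subgroup.closure (Set.range M.t)

lemma t_mem (c : NC S) : M.t c ∈ M.sub := Subgroup.subset_closure ⟨c, rfl⟩

lemma ev_mem (w : List (NC S)) : M.ev w ∈ M.sub :=
  list_prod_mem fun x hx => by
    obtain ⟨c, -, rfl⟩ := List.mem_map.1 hx
    exact M.t_mem c

lemma hom_rev (c : NC S) : M.hom (M.t c.rev) = (M.hom (M.t c))⁻¹ :=
  (M.hom_t c.rev).unique (M.hom_t c).inv

variable (hfree : ∀ (x : S.X) (γ : Γ), S.act γ x = x → γ = 1)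

include hfree

/-- Every element is a product of lifts up to a central element with trivial permutation. -/
lemma exists_word {x : E} (hx : x ∈ M.sub) :
    ∃ z : E, ∃ w : List (NC S), (∀ w', Commute z (M.ev w')) ∧ M.hom z = 1 ∧ x = z * M.ev w := by
  induction hx using Subgroup.closure_induction'' with
  | one => exact ⟨1, [], fun _ => Commute.one_left _, map_one _, by simp⟩
  | mem y hy =>
    obtain ⟨c, rfl⟩ := hy
    exact ⟨1, [c], fun _ => Commute.one_left _, map_one _, by simp⟩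
  | inv_mem y hy =>
    obtain ⟨c, rfl⟩ := hy
    have hk : M.hom (M.ev [c.rev, c]) = 1 := by simp [M.hom_rev]
    refine ⟨(M.ev [c.rev, c])⁻¹, [c.rev], fun w' => (M.commute_ev hfree _ w' hk).inv_left,
      by rw [map_inv, hk, inv_one], ?_⟩
    simp
  | mul y y' _ _ hy hy' =>
    obtain ⟨z, w, hz, hz1, rfl⟩ := hy
    obtain ⟨z', w', hz', hz1', rfl⟩ := hy'
    refine ⟨z * z', w ++ w', fun u => (hz u).mul_left (hz' u), by simp [hz1, hz1'], ?_⟩
    rw [M.ev_append, mul_assoc z, mul_assoc z, ← mul_assoc (M.ev w), ← (hz' w).eq, mul_assoc]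

/-- Elements conjugate the lifts of nice cycles through their permutations. -/
theorem good {x : E} (hx : x ∈ M.sub) (d d' : NC S)
    (h : SFT.Cyc.MapsTo (M.hom x) d.cyc d'.cyc) : x * M.t d * x⁻¹ = M.t d' := by
  obtain ⟨z, w, hz, hz1, rfl⟩ := M.exists_word hfree hx
  have e := M.conj_maps hfree w d d' h.1 fun i y hy v => by
    have := h.2 i y hy v
    simp only [map_mul, hz1, one_mul] at this
    exact this
  have hc : Commute z (M.t d') := by simpa using hz [d']
  rw [mul_inv_rev, show z * M.ev w * M.t d * ((M.ev w)⁻¹ * z⁻¹) =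
    z * (M.ev w * M.t d * (M.ev w)⁻¹) * z⁻¹ by group, e, hc.eq, mul_inv_cancel_right]

omit hfree

/-! ### Values on cycles that are images of nice ones -/

/-- `e` is the lift of `c` obtained from a nice cycle. -/
def Rep (c : S.Cyc) (e : E) : Prop :=
  ∃ x ∈ M.sub, ∃ d : NC S, SFT.Cyc.MapsTo (M.hom x) d.cyc c ∧ e = x * M.t d * x⁻¹

/-- `c` is the image of a nice cycle. -/
def Ready (c : S.Cyc) : Prop := ∃ e, M.Rep c e

open Classical in
/-- The value on such a cycle. -/
noncomputable def val (c : S.Cyc) : E := if h : M.Ready c then h.choose else 1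

lemma Rep.mem {c : S.Cyc} {e : E} (h : M.Rep c e) : e ∈ M.sub := by
  obtain ⟨x, hx, d, -, rfl⟩ := h
  exact mul_mem (mul_mem hx (M.t_mem d)) (inv_mem hx)

lemma Rep.map {c c' : S.Cyc} {e x : E} (h : M.Rep c e) (hx : x ∈ M.sub)
    (hm : SFT.Cyc.MapsTo (M.hom x) c c') : M.Rep c' (x * e * x⁻¹) := by
  obtain ⟨y, hy, d, hd, rfl⟩ := h
  exact ⟨x * y, mul_mem hx hy, d, by rw [map_mul]; exact hd.comp hm, by group⟩

lemma rep_nice (d : NC S) : M.Rep d.cyc (M.t d) :=
  ⟨1, one_mem _, d, by rw [map_one]; exact SFT.Cyc.MapsTo.refl _, by simp⟩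

lemma isPerm_conj {d c : S.Cyc} {g h : Perm S.Pt} (hg : SFT.Cyc.MapsTo g d c)
    (hh : d.IsPerm S h) : c.IsPerm S (g * h * g⁻¹) := by
  refine ⟨fun i x hx w => ?_, fun p hp => ?_⟩
  · have hx' : x ∈ d.base := hg.1 ▸ hx
    rw [← hg.2 i x hx' w, ← hg.2 (i + 1) x hx' w, ← hh.1 i x hx' w]
    simp
  · have : h (g⁻¹ p) = g⁻¹ p := hh.2 _ fun i hi => by
      obtain ⟨x, hx, w, e⟩ := hi
      refine hp i ⟨x, hg.1.symm ▸ hx, w, ?_⟩
      rw [← hg.2 i x hx w, ← e]
      exact (g.apply_symm_apply p).symm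
    rw [Perm.mul_apply, Perm.mul_apply, this]
    exact g.apply_symm_apply p

lemma Rep.isPerm {c : S.Cyc} {e : E} (h : M.Rep c e) : c.IsPerm S (M.hom e) := by
  obtain ⟨x, -, d, hd, rfl⟩ := h
  rw [map_mul, map_mul, map_inv]
  exact isPerm_conj hd (M.hom_t d)

include hfree

lemma Rep.unique {c : S.Cyc} {e e' : E} (h : M.Rep c e) (h' : M.Rep c e') : e = e' := by
  obtain ⟨x, hx, d, hd, rfl⟩ := h
  obtain ⟨y, hy, d', hd', rfl⟩ := h'
  have := M.good hfree (mul_mem (inv_mem hy) hx) d d' (by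
    rw [map_mul, map_inv]
    exact hd.comp hd'.symm)
  rw [← this]
  group

lemma val_eq {c : S.Cyc} {e : E} (h : M.Rep c e) : M.val c = e := by
  have hr : M.Ready c := ⟨e, h⟩
  rw [val, dif_pos hr]
  exact Rep.unique M hfree hr.choose_spec h

omit hfree in
lemma rep_val {c : S.Cyc} (h : M.Ready c) : M.Rep c (M.val c) := by
  rw [val, dif_pos h]
  exact h.choose_spec

omit hfree

lemma Ready.restrict {c : S.Cyc} (h : M.Ready c) {V : Set S.X} (hV : IsClopen V) :
    M.Ready (c.restrict hV) := by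
  obtain ⟨_, x, hx, d, hd, -⟩ := h
  exact ⟨_, x, hx, d.onBase (d.base ∩ V) (d.clopen.inter hV), hd.restrict hV, rfl⟩

lemma Ready.extend {c : S.Cyc} (h : M.Ready c) (b : Bool) : M.Ready (c.extend b) := by
  obtain ⟨_, x, hx, d, hd, -⟩ := h
  exact ⟨_, x, hx, d.app [b], hd.extend b, rfl⟩

include hfree

lemma val_restrict {c : S.Cyc} (h : M.Ready c) {V : Set S.X} (hV : IsClopen V) :
    M.val c = M.val (c.restrict hV) * M.val (c.restrict hV.compl) := by
  obtain ⟨e, x, hx, d, hd, rfl⟩ := h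
  rw [M.val_eq hfree ⟨x, hx, d, hd, rfl⟩,
    M.val_eq hfree ⟨x, hx, d.onBase (d.base ∩ V) (d.clopen.inter hV), hd.restrict hV, rfl⟩,
    M.val_eq hfree ⟨x, hx, d.onBase (d.base ∩ Vᶜ) (d.clopen.inter hV.compl),
      hd.restrict hV.compl, rfl⟩]
  rw [M.union d (d.onBase (d.base ∩ V) (d.clopen.inter hV))
    (d.onBase (d.base ∩ Vᶜ) (d.clopen.inter hV.compl)) (fun _ => rfl) (fun _ => rfl)
    (Set.disjoint_left.2 fun y h1 h2 => h2.2 h1.2) (Set.inter_union_compl d.base V).symm]
  group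

lemma val_extend {c : S.Cyc} (h : M.Ready c) :
    M.val c = M.val (c.extend false) * M.val (c.extend true) := by
  obtain ⟨e, x, hx, d, hd, rfl⟩ := h
  rw [M.val_eq hfree ⟨x, hx, d, hd, rfl⟩,
    M.val_eq hfree ⟨x, hx, d.app [false], hd.extend false, rfl⟩,
    M.val_eq hfree ⟨x, hx, d.app [true], hd.extend true, rfl⟩, M.split d]
  group

omit hfree

end Sys

end Vale.Agent.P193.Bridge
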